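import Vale.Agent.P273.H562.RegDefs

/-!
# P273, LIM, step S5: the exceptional set (562's MeasExc, NullExc, GenExc)
-/

noncomputable section

namespace Vale.Agent.P273.H607

open Set Filter MeasureTheory H681 H95 H732 H973 H562 H573
open scoped Topology ContDiff

/-! ### null sets -/

/-- level sets of a nonzero linear functional are null -/
theorem null_level {E : Type} [NormedAddCommGroup E] [NormedSpace ℝ E] [FiniteDimensional ℝ E]
    [MeasurableSpace E] [BorelSpace E] (μ : Measure E) [μ.IsAddHaarMeasure] (L : E →ₗ[ℝ] ℝ) {v : E}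
    (hv : L v ≠ 0) (c : ℝ) : μ {x | L x = c} = 0 := by
  have h1 : {x | L x = c} = (fun x => x + -((c / L v) • v)) ⁻¹' (LinearMap.ker L : Set E) := by
    ext x
    simp only [mem_preimage, SetLike.mem_coe, LinearMap.mem_ker, map_add, map_neg, map_smul,
      smul_eq_mul, mem_ofPred_eq]
    rw [div_mul_cancel₀ _ hv]
    constructor
    · intro h; rw [h]; ring
    · intro h; linarith
  rw [h1, measure_preimage_add_right]
  refine Measure.addHaar_submodule μ _ fun h => hv ?_
  have : v ∈ LinearMap.ker L := by rw [h]; trivial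
  exact this

/-! ### the points with the large gaps equal to zero -/

section Pt

variable {R : Region} {m : ∀ k, Fin (R.n k + 1)}

theorem last_mem_big (B : Finset (W R m).Fr) (k : Fin 3) : (W R m).last k ∈ big R m B :=
  Finset.mem_union_right _ (Finset.mem_image_of_mem _ (Finset.mem_univ k))

/-- a gap that is not large is free and not in `B` -/
theorem free_of_not_big {B : Finset (W R m).Fr} {g : R.Gap} (h : g ∉ big R m B) :
    ∃ h' : g ≠ (W R m).last ((W R m).nk g), (⟨g, h'⟩ : (W R m).Fr) ∉ B := by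
  have h1 : g ≠ (W R m).last ((W R m).nk g) := by
    intro h2
    apply h
    rw [h2]
    exact last_mem_big B _
  refine ⟨h1, fun h2 => h ?_⟩
  refine Finset.mem_union_left _ ?_
  rw [Finset.mem_map]
  exact ⟨_, h2, rfl⟩

/-- the unit gaps of the limit point -/
def tz (B : Finset (W R m).Fr) (p : Co R m) (g : R.Gap) : ℂ :=
  if g ∈ big R m B then 0 else (W R m).tau p g

theorem qz_eq (B : Finset (W R m).Fr) (p : Co R m) :
    qz R m (big R m B) p = H732.scl R (tz B p, p.2.2.2.2) := rfl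

theorem qz_fst (B : Finset (W R m).Fr) (p : Co R m) (g : R.Gap) :
    (qz R m (big R m B) p).1 g = cw R g * tz B p g := by
  rw [qz_eq, scl_apply]

theorem qz_snd (B : Finset (W R m).Fr) (p : Co R m) :
    (qz R m (big R m B) p).2 = p.2.2.2.2 := by
  rw [qz_eq, scl_apply]

theorem norm_tz_lt {B : Finset (W R m).Fr} {p : Co R m} (hp : ∀ f, 0 < p.1 f) (g : R.Gap) :
    ‖tz B p g‖ < 1 := by
  unfold tz
  split_ifs with h
  · simp
  · obtain ⟨h1, -⟩ := free_of_not_big h
    rw [Reg.norm_tau]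
    have h2 : (W R m).ug p g = p.1 ⟨g, h1⟩ := by
      unfold Reg.ug
      rw [dif_pos h1]
    rw [h2, Real.exp_lt_one_iff]
    have := hp ⟨g, h1⟩
    linarith

theorem eps_qz (B : Finset (W R m).Fr) (p : Co R m) (k : Fin 3) :
    R.eps (qz R m (big R m B) p) k = 0 := by
  rw [qz_eq, eps_scl]
  have h : ∏ g : Fin (R.n k + 1), tz B p ⟨k, g⟩ = 0 :=
    Finset.prod_eq_zero (Finset.mem_univ (m k)) (if_pos (last_mem_big B k))
  change (1 / 16) ^ 2 * ∏ g : Fin (R.n k + 1), tz B p ⟨k, g⟩ = 0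
  rw [h, mul_zero]

theorem norm_prod_tz_le {B : Finset (W R m).Fr} {p : Co R m} (hp : ∀ f, 0 < p.1 f) (k : Fin 3)
    (P : Fin (R.n k + 1) → Prop) [DecidablePred P] :
    ‖∏ g : Fin (R.n k + 1), (if P g then tz B p ⟨k, g⟩ else 1)‖ ≤ 1 := by
  rw [norm_prod]
  refine Finset.prod_le_one (fun _ _ => norm_nonneg _) fun g _ => ?_
  split_ifs
  · exact (norm_tz_lt hp _).le
  · simp

theorem norm_prod_tz_lt {B : Finset (W R m).Fr} {p : Co R m} (hp : ∀ f, 0 < p.1 f) (k : Fin 3)
    (P : Fin (R.n k + 1) → Prop) [DecidablePred P] (g0 : Fin (R.n k + 1)) (h0 : P g0) :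
    ‖∏ g : Fin (R.n k + 1), (if P g then tz B p ⟨k, g⟩ else 1)‖ < 1 := by
  rw [norm_prod, ← Finset.mul_prod_erase _ _ (Finset.mem_univ g0), if_pos h0]
  have h2 : ∏ g ∈ Finset.univ.erase g0, ‖(if P g then tz B p ⟨k, g⟩ else 1 : ℂ)‖ ≤ 1 := by
    refine Finset.prod_le_one (fun _ _ => norm_nonneg _) fun g _ => ?_
    split_ifs
    · exact (norm_tz_lt hp _).le
    · simp
  exact (mul_le_of_le_one_right (norm_nonneg _) h2).trans_lt (norm_tz_lt hp _)

theorem norm_XX_qz {B : Finset (W R m).Fr} {p : Co R m} (hp : ∀ f, 0 < p.1 f) (k : Fin 3) {i : ℕ}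
    (hi : i < R.n k) : ‖R.XX (qz R m (big R m B) p) k i‖ ≤ 1 / 16 := by
  rw [qz_eq, XX_scl R _ k hi, norm_mul]
  have h := norm_prod_tz_le (B := B) hp k (fun g => (g : ℕ) ≤ i)
  have h1 : ‖(1 / 16 : ℂ)‖ = 1 / 16 := by norm_num
  rw [h1]
  change 1 / 16 * ‖∏ g : Fin (R.n k + 1), (if (g : ℕ) ≤ i then tz B p ⟨k, g⟩ else 1)‖ ≤ 1 / 16
  linarith

theorem norm_YY_qz {B : Finset (W R m).Fr} {p : Co R m} (hp : ∀ f, 0 < p.1 f) (k : Fin 3) {i : ℕ}
    (hi : i < R.n k) : ‖R.YY (qz R m (big R m B) p) k i‖ ≤ 1 / 16 := by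
  rw [qz_eq, YY_scl R _ k hi, norm_mul]
  have h := norm_prod_tz_le (B := B) hp k (fun g => i < (g : ℕ))
  have h1 : ‖(1 / 16 : ℂ)‖ = 1 / 16 := by norm_num
  rw [h1]
  change 1 / 16 * ‖∏ g : Fin (R.n k + 1), (if i < (g : ℕ) then tz B p ⟨k, g⟩ else 1)‖ ≤ 1 / 16
  linarith

theorem zone0_near {x : ℂ} (h : x ∈ zone0 false) : ‖x‖ ≤ 11 ∧ ∀ k, 1 / 32 ≤ ‖x - ctr k‖ := by
  simpa [zone0] using h

theorem zone0_far {x : ℂ} (h : x ∈ zone0 true) : x ≠ 0 ∧ ‖x‖ < 1 / 11 := by
  simpa [zone0] using h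

theorem Sx_core (far : R.Cm → Bool) (c : R.Cm) : Sx R far c.1 = far c := by
  unfold Sx
  rw [dif_pos c.2]

theorem Sx_neck (far : R.Cm → Bool) {j : L} {k : Fin 3} (h : R.pl j = Sum.inl k) :
    Sx R far j = false := by
  unfold Sx
  rw [dif_neg]
  simp [h]

/-- the limit point satisfies the conditions of the domain, separation excepted -/
theorem qz_mem_U0 {far : R.Cm → Bool} {B : Finset (W R m).Fr} {p : Co R m}
    (hp : ∀ f, 0 < p.1 f) (hz : ∀ c, p.2.2.2.2 c ∈ zone0 (far c)) :
    qz R m (big R m B) p ∈ H975.U0 R (Sx R far) := by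
  refine ⟨fun k => ?_, fun j k hj => ⟨?_, ?_⟩, fun j s hj l => ?_⟩
  · rw [eps_qz, norm_zero]; norm_num
  · exact (norm_XX_qz hp k (R.rk_lt j k hj)).trans_lt (by norm_num)
  · exact (norm_YY_qz hp k (R.rk_lt j k hj)).trans_lt (by norm_num)
  · rw [eps_qz, pos_core R _ hj, qz_snd]
    have hc := hz ⟨j, by simp [hj]⟩
    have e : Sx R far j = far ⟨j, by simp [hj]⟩ := Sx_core far ⟨j, by simp [hj]⟩
    rw [e]
    cases hf : far ⟨j, by simp [hj]⟩ with
    | false =>
      rw [hf] at hc
      have h1 := (zone0_near hc).2 l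
      simp only [Bool.false_eq_true, if_false, norm_zero]
      positivity
    | true =>
      rw [hf] at hc
      have h1 := (zone0_far hc).2
      simp only [if_true, zero_mul, norm_zero]
      have h2 : ‖ctr l * p.2.2.2.2 ⟨j, by simp [hj]⟩‖ ≤ 11 / 2 * (1 / 11) := by
        rw [norm_mul]
        exact mul_le_mul (H975.norm_ctr_le l) h1.le (norm_nonneg _) (by norm_num)
      have h3 := norm_sub_norm_le (1 : ℂ) (ctr l * p.2.2.2.2 ⟨j, by simp [hj]⟩)
      rw [norm_one] at h3
      have h4 : 0 < ‖1 - ctr l * p.2.2.2.2 ⟨j, by simp [hj]⟩‖ := by linarith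
      positivity

end Pt

section Sep

variable {R : Region} {m : ∀ k, Fin (R.n k + 1)}

theorem norm_ctr_sub_neck {B : Finset (W R m).Fr} {p : Co R m} (hp : ∀ f, 0 < p.1 f) {j : L}
    {k : Fin 3} (hj : R.pl j = Sum.inl k) : ‖R.pos (qz R m (big R m B) p) j - ctr k‖ < 1 / 32 := by
  have hi := R.rk_lt j k hj
  rw [pos_neck R _ hj, add_sub_cancel_left, norm_div]
  have h4 : ‖(2 : ℂ)‖ = 2 := by simp
  have h16 : ‖(1 / 16 : ℂ)‖ = 1 / 16 := by norm_num
  rw [h4]
  have hX : R.XX (qz R m (big R m B) p) k (R.rk j) = 1 / 16 *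
      ∏ g : Fin (R.n k + 1), if (g : ℕ) ≤ R.rk j then tz B p ⟨k, g⟩ else 1 := by
    rw [qz_eq, XX_scl R _ k hi]
  have hY : R.YY (qz R m (big R m B) p) k (R.rk j) = 1 / 16 *
      ∏ g : Fin (R.n k + 1), if R.rk j < (g : ℕ) then tz B p ⟨k, g⟩ else 1 := by
    rw [qz_eq, YY_scl R _ k hi]
  have h0 : tz B p ⟨k, m k⟩ = 0 := if_pos (last_mem_big B k)
  have hlX := norm_prod_tz_lt (B := B) hp k (fun g => (g : ℕ) ≤ R.rk j) 0 (Nat.zero_le _)
  have hlY := norm_prod_tz_lt (B := B) hp k (fun g => R.rk j < (g : ℕ)) (Fin.last _) hi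
  by_cases hm : (m k : ℕ) ≤ R.rk j
  · have e : R.XX (qz R m (big R m B) p) k (R.rk j) = 0 := by
      rw [hX, Finset.prod_eq_zero (Finset.mem_univ (m k)) (by rw [if_pos hm, h0]), mul_zero]
    rw [e, zero_add, hY, norm_mul, h16]
    linarith
  · have e : R.YY (qz R m (big R m B) p) k (R.rk j) = 0 := by
      rw [hY, Finset.prod_eq_zero (Finset.mem_univ (m k)) (by rw [if_pos (not_le.1 hm), h0]),
        mul_zero]
    rw [e, add_zero, hX, norm_mul, h16]
    linarith

theorem norm_pos_neck {B : Finset (W R m).Fr} {p : Co R m} (hp : ∀ f, 0 < p.1 f) {j : L}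
    {k : Fin 3} (hj : R.pl j = Sum.inl k) : ‖R.pos (qz R m (big R m B) p) j‖ ≤ 6 := by
  have h1 := norm_ctr_sub_neck (B := B) hp hj
  have h2 := H975.norm_ctr_le k
  have h3 := norm_add_le (R.pos (qz R m (big R m B) p) j - ctr k) (ctr k)
  rw [sub_add_cancel] at h3
  linarith

theorem mul_ne_one_of_far {x w : ℂ} (hx : ‖x‖ ≤ 11) (hw : ‖w‖ < 1 / 11) : x * w ≠ 1 := by
  intro h
  have h1 := congrArg norm h
  rw [norm_mul, norm_one] at h1
  have h2 : ‖x‖ * ‖w‖ ≤ 11 * ‖w‖ := mul_le_mul_of_nonneg_right hx (norm_nonneg _)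
  linarith

theorem ne_neck {far : R.Cm → Bool} {B : Finset (W R m).Fr} {p : Co R m} (hp : ∀ f, 0 < p.1 f)
    (hz : ∀ c, p.2.2.2.2 c ∈ zone0 (far c)) (c : R.Cm) (hf : far c = false) (i : L) (k : Fin 3)
    (hi : R.pl i = Sum.inl k) : p.2.2.2.2 c ≠ R.pos (qz R m (big R m B) p) i := by
  intro h
  have h1 := norm_ctr_sub_neck (B := B) hp hi
  have h2 := hz c
  rw [hf] at h2
  have h3 := (zone0_near h2).2 k
  rw [h] at h3
  linarith

theorem not_same_neck_core {far : R.Cm → Bool} {B : Finset (W R m).Fr} {p : Co R m}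
    (hp : ∀ f, 0 < p.1 f) (hz : ∀ c, p.2.2.2.2 c ∈ zone0 (far c)) {i j : L}
    {k : Fin 3} {s : Bool} (hi : R.pl i = Sum.inl k) (hj : R.pl j = Sum.inr s) (v v' : ℂ) :
    ¬ Same (Sx R far i) (R.pos (qz R m (big R m B) p) i) v (Sx R far j)
      (R.pos (qz R m (big R m B) p) j) v' := by
  intro h
  have e1 : Sx R far i = false := Sx_neck far hi
  have e2 : Sx R far j = far ⟨j, by simp [hj]⟩ := Sx_core far ⟨j, by simp [hj]⟩
  have e3 : R.pos (qz R m (big R m B) p) j = p.2.2.2.2 ⟨j, by simp [hj]⟩ := by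
    rw [pos_core R _ hj, qz_snd]
  rw [e1, e2, e3] at h
  have hc := hz ⟨j, by simp [hj]⟩
  cases hf : far ⟨j, by simp [hj]⟩ with
  | false =>
    rw [hf] at h
    simp only [Same, if_true] at h
    exact ne_neck hp hz _ hf i k hi h.1.symm
  | true =>
    rw [hf] at h hc
    simp only [Same, Bool.false_eq_true, if_false] at h
    exact mul_ne_one_of_far ((norm_pos_neck hp hi).trans (by norm_num)) (zone0_far hc).2 h.1

theorem qz_mem_dom {far : R.Cm → Bool} {B : Finset (W R m).Fr} {p : Co R m}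
    (hp : ∀ f, 0 < p.1 f) (hz : ∀ c, p.2.2.2.2 c ∈ zone0 (far c)) (ho : ∀ c c' : R.Cm, c ≠ c' → p.2.2.2.2 c ≠ p.2.2.2.2 c') :
    qz R m (big R m B) p ∈ R.dom (Sx R far) := by
  have hU := qz_mem_U0 (B := B) hp hz
  refine ⟨hU.1, hU.2.1, hU.2.2, ?_, ?_⟩
  · intro i j hij _ hn hsame
    rcases hi : R.pl i with k | s
    · rcases hj : R.pl j with l | s'
      · have hkl : k ≠ l := by
          rintro rfl
          exact hn k ⟨hi, hj⟩
        rw [Sx_neck far hi, Sx_neck far hj] at hsame
        simp only [Same, if_true] at hsame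
        have h1 := H975.neck_far hU hi (l := l) hkl.symm
        rw [hsame.1] at h1
        have h2 := norm_ctr_sub_neck (B := B) hp hj
        linarith
      · exact not_same_neck_core hp hz hi hj _ _ hsame
    · rcases hj : R.pl j with l | s'
      · -- swap the two marks
        have e2 : Sx R far i = far ⟨i, by simp [hi]⟩ := Sx_core far ⟨i, by simp [hi]⟩
        have e3 : R.pos (qz R m (big R m B) p) i = p.2.2.2.2 ⟨i, by simp [hi]⟩ := by
          rw [pos_core R _ hi, qz_snd]
        rw [Sx_neck far hj, e2, e3] at hsame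
        have hc := hz ⟨i, by simp [hi]⟩
        cases hf : far ⟨i, by simp [hi]⟩ with
        | false =>
          rw [hf] at hsame
          simp only [Same, if_true] at hsame
          exact ne_neck hp hz _ hf j l hj hsame.1
        | true =>
          rw [hf] at hsame hc
          simp only [Same, Bool.true_eq_false, if_false] at hsame
          have h1 : R.pos (qz R m (big R m B) p) j * p.2.2.2.2 ⟨i, by simp [hi]⟩ ≠ 1 :=
            mul_ne_one_of_far ((norm_pos_neck hp hj).trans (by norm_num)) (zone0_far hc).2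
          exact h1 (by rw [mul_comm]; exact hsame.1)
      · have e1 : Sx R far i = far ⟨i, by simp [hi]⟩ := Sx_core far ⟨i, by simp [hi]⟩
        have e2 : Sx R far j = far ⟨j, by simp [hj]⟩ := Sx_core far ⟨j, by simp [hj]⟩
        have e3 : R.pos (qz R m (big R m B) p) i = p.2.2.2.2 ⟨i, by simp [hi]⟩ := by
          rw [pos_core R _ hi, qz_snd]
        have e4 : R.pos (qz R m (big R m B) p) j = p.2.2.2.2 ⟨j, by simp [hj]⟩ := by
          rw [pos_core R _ hj, qz_snd]
        rw [e1, e2, e3, e4] at hsame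
        have hci := hz ⟨i, by simp [hi]⟩
        have hcj := hz ⟨j, by simp [hj]⟩
        have hne : (⟨i, by simp [hi]⟩ : R.Cm) ≠ ⟨j, by simp [hj]⟩ :=
          fun h => hij (congrArg Subtype.val h)
        cases hf : far ⟨i, by simp [hi]⟩ with
        | false =>
          cases hf' : far ⟨j, by simp [hj]⟩ with
          | false =>
            rw [hf, hf'] at hsame
            simp only [Same, if_true] at hsame
            exact ho _ _ hne hsame.1
          | true =>
            rw [hf, hf'] at hsame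
            rw [hf] at hci
            rw [hf'] at hcj
            simp only [Same, Bool.false_eq_true, if_false] at hsame
            exact mul_ne_one_of_far (zone0_near hci).1 (zone0_far hcj).2 hsame.1
        | true =>
          cases hf' : far ⟨j, by simp [hj]⟩ with
          | false =>
            rw [hf, hf'] at hsame
            rw [hf] at hci
            rw [hf'] at hcj
            simp only [Same, Bool.true_eq_false, if_false] at hsame
            refine mul_ne_one_of_far (zone0_near hcj).1 (zone0_far hci).2 ?_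
            rw [mul_comm]; exact hsame.1
          | true =>
            rw [hf, hf'] at hsame
            simp only [Same, if_true] at hsame
            exact ho _ _ hne hsame.1
  · intro i j k hi hj _ hr h
    have hlt := R.rk_lt j k hj
    have h1 := congrArg norm h
    rw [norm_one, norm_prod] at h1
    let g0 : Fin (R.n k + 1) := ⟨R.rk j, Nat.lt_succ_of_lt hlt⟩
    have hfac : ∀ g : Fin (R.n k + 1), ‖(if R.rk i < (g : ℕ) ∧ (g : ℕ) ≤ R.rk j then
        (qz R m (big R m B) p).1 ⟨k, g⟩ else 1 : ℂ)‖ ≤ 1 := by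
      intro g
      split_ifs
      · rw [qz_fst, norm_mul]
        calc ‖cw R ⟨k, g⟩‖ * ‖tz B p ⟨k, g⟩‖ ≤ 1 * 1 :=
              mul_le_mul (norm_cw_le R _) (norm_tz_lt hp _).le (norm_nonneg _) zero_le_one
          _ = 1 := one_mul 1
      · simp
    have h0 : ‖(if R.rk i < (g0 : ℕ) ∧ (g0 : ℕ) ≤ R.rk j then
        (qz R m (big R m B) p).1 ⟨k, g0⟩ else 1 : ℂ)‖ < 1 := by
      rw [if_pos ⟨hr, le_rfl⟩, qz_fst, norm_mul]
      calc ‖cw R ⟨k, g0⟩‖ * ‖tz B p ⟨k, g0⟩‖ ≤ 1 * ‖tz B p ⟨k, g0⟩‖ :=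
            mul_le_mul_of_nonneg_right (norm_cw_le R _) (norm_nonneg _)
        _ < 1 := by rw [one_mul]; exact norm_tz_lt hp _
    rw [← Finset.mul_prod_erase _ _ (Finset.mem_univ g0)] at h1
    have h2 : ∏ g ∈ Finset.univ.erase g0, ‖(if R.rk i < (g : ℕ) ∧ (g : ℕ) ≤ R.rk j then
        (qz R m (big R m B) p).1 ⟨k, g⟩ else 1 : ℂ)‖ ≤ 1 :=
      Finset.prod_le_one (fun _ _ => norm_nonneg _) fun g _ => hfac g
    have h3 := mul_le_of_le_one_right (norm_nonneg (if R.rk i < (g0 : ℕ) ∧ (g0 : ℕ) ≤ R.rk j then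
        (qz R m (big R m B) p).1 ⟨k, g0⟩ else 1 : ℂ)) h2
    rw [h1] at h3
    linarith

end Sep


/-! ### the exceptional set -/

section Exc

variable (R : Region) (m : ∀ k, Fin (R.n k + 1))

open Classical in
/-- the size of the last gap -/
theorem szl_last (B : Set (W R m).Fr) (p : Co R m) (k : Fin 3) :
    szl R m B p ((W R m).last k) =
      p.2.2.1 k - ∑ f : (W R m).Fr, if (W R m).nk f.1 = k ∧ f ∈ B then p.1 f else 0 := by
  unfold szl
  rw [dif_neg]
  · rfl
  · exact not_not.2 rfl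

open Classical in
theorem szl_free (B : Set (W R m).Fr) (p : Co R m) (f : (W R m).Fr) :
    szl R m B p f.1 = if f ∈ B then p.1 f else 0 := by
  unfold szl
  rw [dif_pos f.2]

theorem continuous_szl (B : Set (W R m).Fr) (g : R.Gap) :
    Continuous fun p : Co R m => szl R m B p g := by
  classical
  have hu : ∀ f : (W R m).Fr, Continuous fun p : Co R m => p.1 f :=
    fun f => (continuous_apply f).comp continuous_fst
  have hy : ∀ k, Continuous fun p : Co R m => p.2.2.1 k :=
    fun k => (continuous_apply k).comp (continuous_fst.comp (continuous_snd.comp continuous_snd))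
  unfold szl
  by_cases h : g ≠ (W R m).last ((W R m).nk g)
  · simp only [dif_pos h]
    split_ifs
    · exact hu _
    · exact continuous_const
  · simp only [dif_neg h]
    refine (hy _).sub (continuous_finsetSum _ fun f _ => ?_)
    split_ifs
    · exact hu _
    · exact continuous_const

theorem continuous_depl (B : Set (W R m).Fr) {j : L} {k : Fin 3} (h : R.pl j = Sum.inl k) :
    Continuous fun p : Co R m => depl R m B p h :=
  continuous_finsetSum _ fun g _ => continuous_szl R m B g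

theorem isClosed_exc (B : Finset (W R m).Fr) : IsClosed (Exc R m B) := by
  have hu : ∀ f : (W R m).Fr, Continuous fun p : Co R m => p.1 f :=
    fun f => (continuous_apply f).comp continuous_fst
  have hy : ∀ k, Continuous fun p : Co R m => p.2.2.1 k :=
    fun k => (continuous_apply k).comp (continuous_fst.comp (continuous_snd.comp continuous_snd))
  have hs : ∀ c, Continuous fun p : Co R m => p.2.2.2.2 c :=
    fun c => (continuous_apply c).comp (continuous_snd.comp (continuous_snd.comp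
      (continuous_snd.comp continuous_snd)))
  have h1 : IsClosed (⋃ f : (W R m).Fr, {p : Co R m | p.1 f = 0}) :=
    isClosed_iUnion_of_finite fun f => isClosed_eq (hu f) continuous_const
  have h2 : IsClosed (⋃ f : (W R m).Fr, {p : Co R m | f ∈ B ∧
      p.1 f = szl R m (↑B) p ((W R m).last ((W R m).nk f.1))}) := by
    refine isClosed_iUnion_of_finite fun f => ?_
    by_cases hf : f ∈ B
    · simp only [hf, true_and]
      exact isClosed_eq (hu f) (continuous_szl R m _ _)
    · simp only [hf, false_and, ofPred_false]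
      exact isClosed_empty
  have h3 : IsClosed (⋃ (j : L), ⋃ (k : Fin 3), {p : Co R m |
      ∃ h : R.pl j = Sum.inl k, 2 * depl R m (↑B) p h = p.2.2.1 k}) := by
    refine isClosed_iUnion_of_finite fun j => isClosed_iUnion_of_finite fun k => ?_
    by_cases h : R.pl j = Sum.inl k
    · have e : {p : Co R m | ∃ h : R.pl j = Sum.inl k, 2 * depl R m (↑B) p h = p.2.2.1 k} =
          {p : Co R m | 2 * depl R m (↑B) p h = p.2.2.1 k} := by
        ext p
        exact ⟨fun ⟨_, h'⟩ => h', fun h' => ⟨h, h'⟩⟩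
      rw [e]
      exact isClosed_eq (continuous_const.mul (continuous_depl R m _ h)) (hy k)
    · have e : {p : Co R m | ∃ h : R.pl j = Sum.inl k, 2 * depl R m (↑B) p h = p.2.2.1 k} = ∅ := by
        ext p
        simp only [mem_empty_iff_false, iff_false]
        exact fun ⟨h', _⟩ => h h'
      rw [e]
      exact isClosed_empty
  have h4 : IsClosed (⋃ (c : R.Cm), ⋃ (c' : R.Cm), {p : Co R m | c ≠ c' ∧
      p.2.2.2.2 c = p.2.2.2.2 c'}) := by
    refine isClosed_iUnion_of_finite fun c => isClosed_iUnion_of_finite fun c' => ?_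
    by_cases hc : c ≠ c'
    · simp only [hc, ne_eq, not_false_eq_true, true_and]
      exact isClosed_eq (hs c) (hs c')
    · simp only [hc, false_and, ofPred_false]
      exact isClosed_empty
  have h5 : IsClosed (⋃ (c : R.Cm), ⋃ (k : Fin 3), {p : Co R m |
      ‖p.2.2.2.2 c - ctr k‖ = 1 / 32}) :=
    isClosed_iUnion_of_finite fun c => isClosed_iUnion_of_finite fun k =>
      isClosed_eq ((hs c).sub continuous_const).norm continuous_const
  have e : Exc R m B = (⋃ f : (W R m).Fr, {p : Co R m | p.1 f = 0}) ∪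
      ((⋃ f : (W R m).Fr, {p : Co R m | f ∈ B ∧
        p.1 f = szl R m (↑B) p ((W R m).last ((W R m).nk f.1))}) ∪
      ((⋃ (j : L), ⋃ (k : Fin 3), {p : Co R m |
        ∃ h : R.pl j = Sum.inl k, 2 * depl R m (↑B) p h = p.2.2.1 k}) ∪
      ((⋃ (c : R.Cm), ⋃ (c' : R.Cm), {p : Co R m | c ≠ c' ∧ p.2.2.2.2 c = p.2.2.2.2 c'}) ∪
      (⋃ (c : R.Cm), ⋃ (k : Fin 3), {p : Co R m | ‖p.2.2.2.2 c - ctr k‖ = 1 / 32})))) := by
    ext p
    simp only [Exc, mem_union, mem_iUnion, mem_ofPred_eq]
  rw [e]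
  exact h1.union (h2.union (h3.union (h4.union h5)))

theorem continuous_mk : Continuous fun q : BF R m => H573.mk R m q.1.1 q.1.2 q.2 := by
  unfold H573.mk
  fun_prop

instance iB : BorelSpace (Fb R m) := Prod.borelSpace

instance iS : SecondCountableTopology (Fb R m) :=
  TopologicalSpace.instSecondCountableTopologyProd

instance iBF : BorelSpace (BF R m) := Prod.borelSpace

end Exc

/-- **(N1)** -/
theorem measExc : MeasExc := fun R m B =>
  ((isClosed_exc R m B).preimage (continuous_mk R m)).measurableSet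

section Null

variable (R : Region) (m : ∀ k, Fin (R.n k + 1))

instance iH1 : (volume : Measure (((W R m).Fr → ℝ) × ((W R m).Fr → ℝ))).IsAddHaarMeasure :=
  Measure.prod.instIsAddHaarMeasure _ _

instance iH : (volume : Measure (Fb R m)).IsAddHaarMeasure :=
  Measure.prod.instIsAddHaarMeasure _ _

/-- the functional `∑ a f u f` -/
def lu (a : (W R m).Fr → ℝ) : Fb R m →ₗ[ℝ] ℝ where
  toFun x := ∑ f, a f * x.1.1 f
  map_add' x y := by
    simp only [Prod.fst_add, Pi.add_apply, mul_add, Finset.sum_add_distrib]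
  map_smul' c x := by
    simp only [Prod.smul_fst, Pi.smul_apply, smul_eq_mul, RingHom.id_apply, Finset.mul_sum]
    exact Finset.sum_congr rfl fun f _ => by ring

theorem null_lu (a : (W R m).Fr → ℝ) {f : (W R m).Fr} (hf : a f ≠ 0) (c : ℝ) :
    ∀ᵐ x : Fb R m, ∑ f, a f * x.1.1 f ≠ c := by
  have h := null_level (volume : Measure (Fb R m)) (lu R m a)
    (v := ((Pi.single f 1, 0), 0)) (by
      change ∑ f', a f' * (Pi.single f (1 : ℝ) : (W R m).Fr → ℝ) f' ≠ 0
      rw [Finset.sum_eq_single f]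
      · simpa using hf
      · intro b _ hb
        rw [Pi.single_eq_of_ne hb, mul_zero]
      · intro h; exact absurd (Finset.mem_univ _) h) c
  rw [ae_iff]
  simpa [lu] using h

/-- real part of the difference of two core coordinates -/
def lc (c c' : R.Cm) : Fb R m →ₗ[ℝ] ℝ where
  toFun x := (x.2 c - x.2 c').re
  map_add' x y := by
    simp only [Prod.snd_add, Pi.add_apply, Complex.sub_re, Complex.add_re]; ring
  map_smul' r x := by
    simp only [Prod.smul_snd, Pi.smul_apply, Complex.sub_re, Complex.real_smul, RingHom.id_apply,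
      Complex.mul_re, Complex.ofReal_re, Complex.ofReal_im, zero_mul, sub_zero, smul_eq_mul]
    ring

theorem null_core {c c' : R.Cm} (h : c ≠ c') : ∀ᵐ x : Fb R m, x.2 c ≠ x.2 c' := by
  have h1 := null_level (volume : Measure (Fb R m)) (lc R m c c')
    (v := ((0, 0), Pi.single c 1)) (by
      change ((Pi.single c (1 : ℂ) : R.Cm → ℂ) c - (Pi.single c (1 : ℂ) : R.Cm → ℂ) c').re ≠ 0
      rw [Pi.single_eq_same, Pi.single_eq_of_ne h.symm]
      simp) 0
  rw [ae_iff]
  refine measure_mono_null (fun x hx => ?_) h1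
  simp only [ne_eq, not_not, mem_ofPred_eq] at hx
  change (x.2 c - x.2 c').re = 0
  rw [hx]; simp

theorem null_circle (c : R.Cm) (z : ℂ) : ∀ᵐ x : Fb R m, ‖x.2 c - z‖ ≠ 1 / 32 := by
  have h0 : (volume : Measure ℂ) (Metric.sphere z (1 / 32)) = 0 :=
    Measure.addHaar_sphere_of_ne_zero _ _ (by norm_num)
  have h1 : Measure.QuasiMeasurePreserving (fun x : Fb R m => x.2) volume volume :=
    Measure.quasiMeasurePreserving_snd
  have h2 : Measure.QuasiMeasurePreserving (fun s : R.Cm → ℂ => s c) volume volume :=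
    Measure.quasiMeasurePreserving_eval _ c
  have h3 := (h2.comp h1).preimage_null h0
  rw [ae_iff]
  refine measure_mono_null (fun x hx => ?_) h3
  simp only [ne_eq, not_not, mem_ofPred_eq] at hx
  simp only [mem_preimage, Metric.mem_sphere, Function.comp_apply, dist_eq_norm]
  exact hx

open Classical in
/-- coefficients of the limit depth -/
def acoef (B : Set (W R m).Fr) (T : Finset R.Gap) (k : Fin 3) (f : (W R m).Fr) : ℝ :=
  (if f.1 ∈ T ∧ f ∈ B then 1 else 0) -
    (if (W R m).last k ∈ T ∧ (W R m).nk f.1 = k ∧ f ∈ B then 1 else 0)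

open Classical in
/-- the limit depth is affine -/
theorem sum_szl (B : Set (W R m).Fr) (p : Co R m) (k : Fin 3) {T : Finset R.Gap}
    (hT : ∀ g ∈ T, (W R m).nk g = k) : ∑ g ∈ T, szl R m B p g =
      ∑ f : (W R m).Fr, acoef R m B T k f * p.1 f +
        if (W R m).last k ∈ T then p.2.2.1 k else 0 := by
  have e1 : ∑ g ∈ T, szl R m B p g = ∑ g : R.Gap, if g ∈ T then szl R m B p g else 0 := by
    rw [Finset.sum_ite_mem, Finset.univ_inter]
  rw [e1, ← Fintype.sum_subtype_add_sum_subtype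
    (fun g : R.Gap => g ≠ (W R m).last ((W R m).nk g))]
  have e2 : (∑ g : {g : R.Gap // ¬ g ≠ (W R m).last ((W R m).nk g)},
      if g.1 ∈ T then szl R m B p g.1 else 0) =
      if (W R m).last k ∈ T then szl R m B p ((W R m).last k) else 0 := by
    rw [Finset.sum_eq_single (⟨(W R m).last k, not_not.2 rfl⟩ :
      {g : R.Gap // ¬ g ≠ (W R m).last ((W R m).nk g)})]
    · intro g _ hg
      rw [if_neg]
      intro h
      apply hg
      apply Subtype.ext
      have h1 := not_not.1 g.2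
      rw [hT _ h] at h1
      exact h1
    · intro h; exact absurd (Finset.mem_univ _) h
  rw [e2]
  have e3 : (∑ f : {g : R.Gap // g ≠ (W R m).last ((W R m).nk g)},
      if f.1 ∈ T then szl R m B p f.1 else 0) =
      ∑ f : (W R m).Fr, (if f.1 ∈ T ∧ f ∈ B then 1 else 0) * p.1 f := by
    refine Finset.sum_congr rfl fun f _ => ?_
    rw [szl_free R m B p f]
    by_cases h1 : f.1 ∈ T <;> by_cases h2 : f ∈ B <;> simp [h1, h2]
  rw [e3]
  by_cases h : (W R m).last k ∈ T
  · rw [if_pos h, if_pos h, szl_last]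
    have e4 : ∀ f : (W R m).Fr, acoef R m B T k f * p.1 f =
        (if f.1 ∈ T ∧ f ∈ B then 1 else 0) * p.1 f -
          (if (W R m).nk f.1 = k ∧ f ∈ B then p.1 f else 0) := by
      intro f
      unfold acoef
      simp only [h, true_and, sub_mul]
      congr 1
      split_ifs <;> simp
    rw [Finset.sum_congr rfl fun f _ => e4 f, Finset.sum_sub_distrib]
    ring
  · rw [if_neg h, if_neg h]
    have e4 : ∀ f : (W R m).Fr, acoef R m B T k f = (if f.1 ∈ T ∧ f ∈ B then 1 else 0) := by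
      intro f
      unfold acoef
      simp [h]
    rw [Finset.sum_congr rfl fun f _ => (by rw [e4 f] : acoef R m B T k f * p.1 f =
      (if f.1 ∈ T ∧ f ∈ B then 1 else 0) * p.1 f)]

theorem null_mid (B : Set (W R m).Fr) (y α : Fin 3 → ℝ) (hy : ∀ k, 0 < y k) {j : L} {k : Fin 3}
    (h : R.pl j = Sum.inl k) : ∀ᵐ x : Fb R m, 2 * depl R m B (H573.mk R m y α x) h ≠ y k := by
  classical
  have hT : ∀ g ∈ wreg.bef R.n k (rkF R h), (W R m).nk g = k := fun g hg =>
    (Reg.mem_neck _).1 (wreg.bef_subset m k _ hg)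
  have hd : ∀ x : Fb R m, depl R m B (H573.mk R m y α x) h =
      ∑ f : (W R m).Fr, acoef R m B (wreg.bef R.n k (rkF R h)) k f * x.1.1 f +
        if (W R m).last k ∈ wreg.bef R.n k (rkF R h) then y k else 0 :=
    fun x => sum_szl R m B (H573.mk R m y α x) k hT
  by_cases ha : ∃ f, acoef R m B (wreg.bef R.n k (rkF R h)) k f ≠ 0
  · obtain ⟨f, hf⟩ := ha
    filter_upwards [null_lu R m _ hf (y k / 2 -
      if (W R m).last k ∈ wreg.bef R.n k (rkF R h) then y k else 0)] with x hx h1
    rw [hd] at h1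
    apply hx
    linarith
  · have ha' : ∀ f, acoef R m B (wreg.bef R.n k (rkF R h)) k f = 0 := fun f => by
      by_contra h'
      exact ha ⟨f, h'⟩
    refine Eventually.of_forall fun x h1 => ?_
    rw [hd, Finset.sum_eq_zero fun f _ => by rw [ha' f, zero_mul], zero_add] at h1
    have := hy k
    split_ifs at h1
    · linarith
    · linarith

theorem null_last (B : Set (W R m).Fr) (y α : Fin 3 → ℝ) (f : (W R m).Fr) (hf : f ∈ B) :
    ∀ᵐ x : Fb R m, (H573.mk R m y α x).1 f ≠
      szl R m B (H573.mk R m y α x) ((W R m).last ((W R m).nk f.1)) := by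
  classical
  have h := null_lu R m (fun f' => (if f' = f then 1 else 0) +
    (if (W R m).nk f'.1 = (W R m).nk f.1 ∧ f' ∈ B then 1 else 0)) (f := f)
    (by simp [hf]) (y ((W R m).nk f.1))
  filter_upwards [h] with x hx h1
  apply hx
  rw [szl_last] at h1
  have e : ∑ f' : (W R m).Fr, ((if f' = f then (1 : ℝ) else 0) +
      (if (W R m).nk f'.1 = (W R m).nk f.1 ∧ f' ∈ B then 1 else 0)) * x.1.1 f' =
      x.1.1 f + ∑ f' : (W R m).Fr,
        if (W R m).nk f'.1 = (W R m).nk f.1 ∧ f' ∈ B then x.1.1 f' else 0 := by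
    simp only [add_mul, Finset.sum_add_distrib, ite_mul, one_mul, zero_mul,
      Finset.sum_ite_eq', Finset.mem_univ, if_true]
  rw [e]
  have h2 : x.1.1 f = y ((W R m).nk f.1) - ∑ f' : (W R m).Fr,
      if (W R m).nk f'.1 = (W R m).nk f.1 ∧ f' ∈ B then x.1.1 f' else 0 := h1
  linarith

end Null

/-- **(N2)** -/
theorem nullExc : NullExc := by
  intro R m B y α hy
  classical
  have h1 : ∀ᵐ x : Fb R m, ∀ f, x.1.1 f ≠ 0 := by
    rw [ae_all_iff]
    intro f
    have h := null_lu R m (fun f' => if f' = f then 1 else 0) (f := f) (by simp) 0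
    filter_upwards [h] with x hx h0
    apply hx
    simp [h0]
  have h2 : ∀ᵐ x : Fb R m, ∀ f, f ∈ B → (H573.mk R m y α x).1 f ≠
      szl R m (↑B) (H573.mk R m y α x) ((W R m).last ((W R m).nk f.1)) := by
    rw [ae_all_iff]
    intro f
    rw [ae_all_iff]
    exact fun hf => null_last R m (↑B) y α f hf
  have h3 : ∀ᵐ x : Fb R m, ∀ (j : L) (k : Fin 3) (h : R.pl j = Sum.inl k),
      2 * depl R m (↑B) (H573.mk R m y α x) h ≠ y k := by
    rw [ae_all_iff]
    intro j
    rw [ae_all_iff]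
    intro k
    rw [ae_all_iff]
    intro h
    exact null_mid R m _ y α hy h
  have h4 : ∀ᵐ x : Fb R m, ∀ c c' : R.Cm, c ≠ c' → x.2 c ≠ x.2 c' := by
    rw [ae_all_iff]
    intro c
    rw [ae_all_iff]
    intro c'
    rw [ae_all_iff]
    exact fun h => null_core R m h
  have h5 : ∀ᵐ x : Fb R m, ∀ (c : R.Cm) (k : Fin 3), ‖x.2 c - ctr k‖ ≠ 1 / 32 := by
    rw [ae_all_iff]
    intro c
    rw [ae_all_iff]
    intro k
    exact null_circle R m c _
  filter_upwards [h1, h2, h3, h4, h5] with x a1 a2 a3 a4 a5 hx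
  rcases hx with ⟨f, hf⟩ | ⟨f, hf, hf'⟩ | ⟨j, k, h, hd⟩ | ⟨c, c', hc, hc'⟩ | ⟨c, k, hc⟩
  · exact a1 f hf
  · exact a2 f hf hf'
  · exact a3 j k h hd
  · exact a4 c c' hc hc'
  · exact a5 c k hc

theorem pos_of {R : Region} {m : ∀ k, Fin (R.n k + 1)} {B : Set (W R m).Fr} {p : Co R m}
    (hp : ∀ f, 0 < p.1 f) (hy : ∀ k, 0 < p.2.2.1 k)
    (hs : ∀ f ∈ B, p.1 f < szl R m B p ((W R m).last ((W R m).nk f.1))) : (W R m).Pos B p := by
  classical
  refine ⟨fun f _ => hp f, fun k => ?_⟩
  by_cases h : ∃ f, f ∈ B ∧ (W R m).nk f.1 = k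
  · obtain ⟨f, hf, hk⟩ := h
    have h1 := hs f hf
    rw [szl_last, hk] at h1
    have h2 := hp f
    have e : (∑ f' : (W R m).Fr, if (W R m).nk f'.1 = k ∧ f' ∈ B then p.1 f' else 0) =
        ∑ f' : (W R m).Fr, if f' ∈ B ∧ (W R m).nk f'.1 = k then p.1 f' else 0 :=
      Finset.sum_congr rfl fun f' _ => by simp only [and_comm]
    rw [e] at h1
    linarith
  · have e : (∑ f' : (W R m).Fr, if f' ∈ B ∧ (W R m).nk f'.1 = k then p.1 f' else 0) = 0 :=
      Finset.sum_eq_zero fun f' _ => if_neg fun h' => h ⟨f', h'.1, h'.2⟩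
    rw [e]; exact hy k

/-- **(N3)** -/
theorem genExc : GenExc := by
  intro R m far B y α hy hα x hx he
  obtain ⟨x1, x2, x3, x4⟩ := hx
  have hp : ∀ f, 0 < (H573.mk R m y α x).1 f := x1
  have ho : ∀ c c' : R.Cm, c ≠ c' →
      (H573.mk R m y α x).2.2.2.2 c ≠ (H573.mk R m y α x).2.2.2.2 c' :=
    fun c c' hc h => he (Or.inr (Or.inr (Or.inr (Or.inl ⟨c, c', hc, h⟩))))
  have hz : ∀ c, (H573.mk R m y α x).2.2.2.2 c ∈ zone0 (far c) := x4
  refine ⟨⟨pos_of hp hy fun f hf => x2 f hf, fun f _ => hp f, x2, hα, ?_, ?_⟩, hy,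
    qz_mem_dom hp hz ho⟩
  · intro c _
    have hc := x4 c
    change x.2 c ∈ _
    simp only
    rw [Sx_core far c]
    cases hf : far c with
    | false =>
      rw [hf] at hc
      have h := zone0_near hc
      simp only [Bool.false_eq_true, if_false]
      refine ⟨by simpa using h.1, fun l => ?_⟩
      exact (by norm_num : (1 : ℝ) / 64 ≤ 1 / 32).trans (h.2 l)
    | true =>
      rw [hf] at hc
      have h := zone0_far hc
      simp only [if_true, mem_closedBall_zero_iff]
      have := h.2.le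
      rwa [one_div] at this
  · intro j k h h'
    exact he (Or.inr (Or.inr (Or.inl ⟨j, k, h, h'⟩)))

end Vale.Agent.P273.H607
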