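import Vale.Agent.P273.H562.RegDefs
import Vale.Agent.P273.H182.DomF
import Vale.Agent.P273.H578.BrTh

/-!
# P273, LIM, step S5: the integrand is continuous on the domain (562's ContOm)

Three cases at a point: a mark at a root (the form is zero nearby), two marks of the same type at the
same point of the curve (zero nearby), otherwise everything is continuous.
-/

noncomputable section

namespace Vale.Agent.P273.H607

open Set Filter MeasureTheory H681 H95 H732 H973 H562 H573
open scoped Topology ContDiff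

/-! ### continuity of the wedge form -/

section Wedge

variable {E H : Type*} [NormedAddCommGroup E] [NormedSpace ℝ E] [FiniteDimensional ℝ E]
  [NormedAddCommGroup H] [NormedSpace ℝ H]

theorem continuousAt_alt {ι : Type*} [Fintype ι] {X : Type*} [TopologicalSpace X]
    {f : X → E [⋀^ι]→L[ℝ] ℝ} {x : X} (h : ∀ w, ContinuousAt (fun y => f y w) x) :
    ContinuousAt f x := by
  obtain ⟨κ, hκ, W, R, hR⟩ := exists_evals ι E ℝ
  have h1 : ContinuousAt (fun y => fun k : κ => f y (W k)) x := continuousAt_pi.2 fun k => h (W k)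
  have h2 := R.continuous.continuousAt.comp h1
  simpa [Function.comp_def, hR] using h2

theorem continuousAt_wedgeT {p q : ℕ} {X : Type*} [TopologicalSpace X]
    {F : X → E [⋀^Fin p]→L[ℝ] ℝ} (T : ContinuousMultilinearMap ℝ (fun _ : Fin q => H) ℝ)
    {θ : Fin q → X → E →L[ℝ] H} {x : X} (hF : ContinuousAt F x)
    (hθ : ∀ j, ContinuousAt (θ j) x) :
    ContinuousAt (fun y => wedgeT (F y) T (fun j => θ j y)) x := by
  refine continuousAt_alt fun w => ?_
  simp only [wedgeT_apply]
  have hs : ∀ σ : Equiv.Perm (Fin (p + q)), ContinuousAt (fun y => Equiv.Perm.sign σ •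
      (F y (fun i => w (σ (Fin.castAdd q i))) •
        T (fun j => θ j y (w (σ (Fin.natAdd p j)))))) x := by
    intro σ
    have h1 : ContinuousAt (fun y => F y (fun i => w (σ (Fin.castAdd q i)))) x :=
      (ContinuousAlternatingMap.apply ℝ E ℝ
        (fun i => w (σ (Fin.castAdd q i)))).continuous.continuousAt.comp hF
    have h2 : ContinuousAt (fun y => T (fun j => θ j y (w (σ (Fin.natAdd p j))))) x := by
      have h3 : ContinuousAt (fun y => fun j : Fin q => θ j y (w (σ (Fin.natAdd p j)))) x :=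
        continuousAt_pi.2 fun j => (hθ j).clm_apply continuousAt_const
      exact T.cont.continuousAt.comp h3
    have h4 : ContinuousAt (fun y => F y (fun i => w (σ (Fin.castAdd q i))) •
        T (fun j => θ j y (w (σ (Fin.natAdd p j))))) x := h1.smul h2
    exact h4.const_smul (Equiv.Perm.sign σ)
  have h5 : ContinuousAt (fun y => ∑ σ : Equiv.Perm (Fin (p + q)), Equiv.Perm.sign σ •
      (F y (fun i => w (σ (Fin.castAdd q i))) •
        T (fun j => θ j y (w (σ (Fin.natAdd p j)))))) x :=
    tendsto_finsetSum _ fun σ _ => hs σ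
  exact h5.const_smul ((p.factorial : ℝ)⁻¹)

end Wedge

variable {R : Region} {m : ∀ k, Fin (R.n k + 1)}

theorem continuous_posE : Continuous (posE R m) := (H578.contDiff_posE R m).continuous

theorem continuous_fderiv_posE : Continuous (fderiv ℝ (posE R m)) :=
  (H578.contDiff_posE R m).continuous_fderiv (by simp)

/-- the curve equation near a point -/
theorem ev_sheet {S : L → Bool} (hS : H732.FarOk R S) {p0 : Co R m}
    (hD : emb R m p0 ∈ H375.D1 R S) : ∀ᶠ p in 𝓝 p0, ∀ j,
      shE R m S p j ^ 2 = pol (S j) (rts (posE R m p).1) ((posE R m p).2 j) := by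
  filter_upwards [H578.eventually_D1 hD] with p hp j
  rw [H578.rts_posE]
  exact H375.sht_sq R hS j hp

theorem continuousAt_shE {S : L → Bool} {p0 : Co R m} (hD : emb R m p0 ∈ H375.D1 R S) (j : L) :
    ContinuousAt (fun p => shE R m S p j) p0 := (H578.contDiffAt_shE hD j).continuousAt

theorem ev_shE {S : L → Bool} {p0 : Co R m} (hD : emb R m p0 ∈ H375.D1 R S) {r : ℝ} (hr : 0 < r) :
    ∀ᶠ p in 𝓝 p0, ∀ j, ‖shE R m S p j - shE R m S p0 j‖ < r := by
  rw [eventually_all]
  intro j
  have h := (continuousAt_shE hD j).eventually (Metric.ball_mem_nhds _ hr)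
  filter_upwards [h] with p hp
  rwa [dist_eq_norm] at hp

theorem ev_posE (p0 : Co R m) {r : ℝ} (hr : 0 < r) :
    ∀ᶠ p in 𝓝 p0, ‖posE R m p - posE R m p0‖ < r := by
  have h := (continuous_posE (R := R) (m := m)).continuousAt.eventually
    (Metric.ball_mem_nhds (posE R m p0) hr)
  filter_upwards [h] with p hp
  rwa [dist_eq_norm] at hp

theorem thR_congr {Θ : Gauge} {S : L → Bool} {a b : Fin 14} {p : Co R m}
    (h : ∀ ξ, IsCl ξ → Θ.θ (mrk a) ξ S (posE R m p) (shE R m S p) =
      Θ.θ (mrk b) ξ S (posE R m p) (shE R m S p)) : thR R m Θ S a p = thR R m Θ S b p := by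
  have e : Θ.th a S (posE R m p) (shE R m S p) = Θ.th b S (posE R m p) (shE R m S p) := by
    refine ContinuousLinearMap.ext fun u => funext fun c => ?_
    change Θ.θ (mrk a) (col4 c) S _ _ u = Θ.θ (mrk b) (col4 c) S _ _ u
    rw [h _ (H182.isCl_col4 c)]
  rw [thR, thR, e]

theorem thR_eq_zero {Θ : Gauge} {S : L → Bool} {a : Fin 14} {p : Co R m}
    (h : ∀ ξ, IsCl ξ → Θ.θ (mrk a) ξ S (posE R m p) (shE R m S p) = 0) :
    thR R m Θ S a p = 0 := by
  have e : Θ.th a S (posE R m p) (shE R m S p) = 0 := by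
    refine ContinuousLinearMap.ext fun u => funext fun c => ?_
    change Θ.θ (mrk a) (col4 c) S _ _ u = 0
    rw [h _ (H182.isCl_col4 c)]
    rfl
  rw [thR, e, ContinuousLinearMap.zero_comp]

/-- **root case**: zero near the point -/
theorem ev_root {X : Ext} {Θ : Gauge} {T : MT} {S : L → Bool} (hS : H732.FarOk R S) {p0 : Co R m}
    (hD : emb R m p0 ∈ H375.D1 R S) (hX : (posE R m p0).1 ∈ XX) {a : Fin 14}
    (h0 : shE R m S p0 (mrk a) = 0) : ∀ᶠ p in 𝓝 p0, OmR R m X Θ T S p = 0 := by
  have hs := ev_sheet hS hD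
  have h1 : pol (S (mrk a)) (rts (posE R m p0).1) ((posE R m p0).2 (mrk a)) = 0 := by
    rw [← hs.self_of_nhds (mrk a), h0]
    simp
  obtain ⟨k, hk⟩ := H182.root_of_pol h1
  obtain ⟨r, hr, hroot⟩ := Θ.root (posE R m p0).1 hX k
  have hc : ContinuousAt (fun p : Co R m => (posE R m p).2 (mrk a)) p0 :=
    (continuous_apply (mrk a)).continuousAt.comp (continuous_snd.comp continuous_posE).continuousAt
  have h2 : ∀ᶠ p in 𝓝 p0, (if S (mrk a) then
      ‖(posE R m p).2 (mrk a) * (posE R m p0).1 k - 1‖ < r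
      else ‖(posE R m p).2 (mrk a) - (posE R m p0).1 k‖ < r) := by
    cases hSa : S (mrk a)
    · rw [hSa] at hk
      simp only [Bool.false_eq_true, if_false] at hk ⊢
      have h3 : ContinuousAt (fun p : Co R m =>
          ‖(posE R m p).2 (mrk a) - (posE R m p0).1 k‖) p0 := (hc.sub continuousAt_const).norm
      have h4 : ‖(posE R m p0).2 (mrk a) - (posE R m p0).1 k‖ < r := by rw [hk, norm_zero]; exact hr
      exact h3.eventually (gt_mem_nhds h4)
    · rw [hSa] at hk
      simp only [if_true] at hk ⊢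
      have h3 : ContinuousAt (fun p : Co R m =>
          ‖(posE R m p).2 (mrk a) * (posE R m p0).1 k - 1‖) p0 :=
        ((hc.mul continuousAt_const).sub continuousAt_const).norm
      have h4 : ‖(posE R m p0).2 (mrk a) * (posE R m p0).1 k - 1‖ < r := by
        rw [hk, norm_zero]; exact hr
      exact h3.eventually (gt_mem_nhds h4)
  filter_upwards [hs, h2, ev_posE p0 hr] with p hp1 hp2 hp3
  refine H182.OmR_eq_zero (i := a) (thR_eq_zero fun ξ hξ => ?_)
  refine hroot (mrk a) ξ S (posE R m p) (shE R m S p) hξ ?_ hp2 hp1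
  exact (norm_fst_le (posE R m p - posE R m p0)).trans_lt hp3

/-- **collision case**: zero near the point -/
theorem ev_col {X : Ext} {Θ : Gauge} {T : MT} (hT : SymT T) {S : L → Bool}
    (hS : H732.FarOk R S) {p0 : Co R m} (hD : emb R m p0 ∈ H375.D1 R S)
    (hX : (posE R m p0).1 ∈ XX) (hn : ∀ j, shE R m S p0 j ≠ 0) {a b : Fin 14}
    (hab : mrk a ≠ mrk b) (h2 : (mrk a).2 = (mrk b).2)
    (hsame : Same (S (mrk a)) ((posE R m p0).2 (mrk a)) (shE R m S p0 (mrk a))
      (S (mrk b)) ((posE R m p0).2 (mrk b)) (shE R m S p0 (mrk b))) :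
    ∀ᶠ p in 𝓝 p0, OmR R m X Θ T S p = 0 := by
  have hs := ev_sheet hS hD
  obtain ⟨r, hr, h⟩ := Θ.col (mrk a) (mrk b) hab h2 S (posE R m p0) (shE R m S p0) hX
    (fun j => ⟨hs.self_of_nhds j, hn j⟩) hsame
  filter_upwards [hs, ev_posE p0 hr, ev_shE hD hr] with p hp1 hp2 hp3
  have hne : a ≠ b := fun h => hab (by rw [h])
  exact wedgeT_eq_zero_of_eq _ hne (hT a b h2) (thR_congr fun ξ hξ =>
    h (posE R m p) (shE R m S p) hp2 hp3 hp1 ξ hξ)

/-- **regular case**: the one-forms are continuous -/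
theorem continuousAt_thR {Θ : Gauge} {S : L → Bool} (hS : H732.FarOk R S) {p0 : Co R m}
    (hD : emb R m p0 ∈ H375.D1 R S) (hX : (posE R m p0).1 ∈ XX)
    (hn : ∀ j, shE R m S p0 j ≠ 0) (i : Fin 14) : ContinuousAt (thR R m Θ S i) p0 := by
  have hs := ev_sheet hS hD
  refine continuousAt_clm_apply.2 fun v => ?_
  refine continuousAt_pi.2 fun c => ?_
  change ContinuousAt (fun p => Θ.θ (mrk i) (col4 c) S (posE R m p) (shE R m S p)
    (fderiv ℝ (posE R m) p v)) p0
  have h1 : ContinuousAt (fun p => fderiv ℝ (posE R m) p v) p0 :=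
    continuous_fderiv_posE.continuousAt.clm_apply continuousAt_const
  obtain ⟨U, g, r, hU, hm, hr, hg, -, heq⟩ := Θ.reg (mrk i) (col4 c) S (posE R m p0)
    (shE R m S p0) (H182.isCl_col4 c) hX (fun j => ⟨hs.self_of_nhds j, hn j⟩)
  have h2 : ContinuousAt (fun p => g (posE R m p)) p0 :=
    ContinuousAt.comp (f := posE R m) (g := g)
      (hg.continuousOn.continuousAt (hU.mem_nhds hm)) continuous_posE.continuousAt
  have h3 : ContinuousAt (fun p => g (posE R m p) (fderiv ℝ (posE R m) p v)) p0 :=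
    h2.clm_apply h1
  refine h3.congr ?_
  filter_upwards [hs, ev_shE hD hr,
    continuous_posE.continuousAt.eventually (hU.mem_nhds hm)] with p hp1 hp2 hp3
  rw [heq (posE R m p) hp3 (shE R m S p) hp1 hp2]

/-- two marks of one neck with product one between them are at the same point -/
theorem same_of_prod {S : L → Bool} (hS : H732.FarOk R S) {q : R.Sp} {i j : L} {k : Fin 3}
    (hi : R.pl i = Sum.inl k) (hj : R.pl j = Sum.inl k) (hr : R.rk i < R.rk j)
    (h : ∏ g : Fin (R.n k + 1), (if R.rk i < (g : ℕ) ∧ (g : ℕ) ≤ R.rk j then q.1 ⟨k, g⟩ else 1)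
      = 1) : Same (S i) (R.pos q i) (R.sht S q i) (S j) (R.pos q j) (R.sht S q j) := by
  have hX : R.XX q k (R.rk j) = R.XX q k (R.rk i) := by
    have e : (∏ g : Fin (R.n k + 1), if (g : ℕ) ≤ R.rk j then q.1 ⟨k, g⟩ else 1) =
        (∏ g : Fin (R.n k + 1), if (g : ℕ) ≤ R.rk i then q.1 ⟨k, g⟩ else 1) *
        ∏ g : Fin (R.n k + 1),
          (if R.rk i < (g : ℕ) ∧ (g : ℕ) ≤ R.rk j then q.1 ⟨k, g⟩ else 1) := by
      rw [← Finset.prod_mul_distrib]
      refine Finset.prod_congr rfl fun g _ => ?_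
      by_cases h1 : (g : ℕ) ≤ R.rk i
      · have h2 : (g : ℕ) ≤ R.rk j := h1.trans hr.le
        have h3 : ¬ (R.rk i < (g : ℕ) ∧ (g : ℕ) ≤ R.rk j) := fun h => absurd h.1 (not_lt.2 h1)
        rw [if_pos h2, if_pos h1, if_neg h3, mul_one]
      · by_cases h2 : (g : ℕ) ≤ R.rk j
        · rw [if_pos h2, if_neg h1, if_pos ⟨not_le.1 h1, h2⟩, one_mul]
        · have h3 : ¬ (R.rk i < (g : ℕ) ∧ (g : ℕ) ≤ R.rk j) := fun h => h2 h.2
          rw [if_neg h2, if_neg h1, if_neg h3, mul_one]
    rw [h, mul_one] at e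
    exact e
  have hY : R.YY q k (R.rk i) = R.YY q k (R.rk j) := by
    have e : (∏ g : Fin (R.n k + 1), if R.rk i < (g : ℕ) then q.1 ⟨k, g⟩ else 1) =
        (∏ g : Fin (R.n k + 1), if R.rk j < (g : ℕ) then q.1 ⟨k, g⟩ else 1) *
        ∏ g : Fin (R.n k + 1),
          (if R.rk i < (g : ℕ) ∧ (g : ℕ) ≤ R.rk j then q.1 ⟨k, g⟩ else 1) := by
      rw [← Finset.prod_mul_distrib]
      refine Finset.prod_congr rfl fun g _ => ?_
      by_cases h1 : R.rk j < (g : ℕ)
      · have h2 : R.rk i < (g : ℕ) := hr.trans h1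
        have h3 : ¬ (R.rk i < (g : ℕ) ∧ (g : ℕ) ≤ R.rk j) := fun h => absurd h.2 (not_le.2 h1)
        rw [if_pos h2, if_pos h1, if_neg h3, mul_one]
      · by_cases h2 : R.rk i < (g : ℕ)
        · rw [if_pos h2, if_neg h1, if_pos ⟨h2, not_lt.1 h1⟩, one_mul]
        · have h3 : ¬ (R.rk i < (g : ℕ) ∧ (g : ℕ) ≤ R.rk j) := fun h => h2 h.1
          rw [if_neg h2, if_neg h1, if_neg h3, mul_one]
    rw [h, mul_one] at e
    exact e
  have hp : R.pos q i = R.pos q j := by
    rw [pos_neck R q hi, pos_neck R q hj, hX, hY]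
  have hsh : R.sht S q i = R.sht S q j := by
    rw [sht_neck R S q hi, sht_neck R S q hj, hX, hY, hp]
  have hSi : ∀ l : L, R.pl l = Sum.inl k → S l = false := fun l hl => by
    by_contra hc
    have := hS l (by simpa using hc)
    rw [hl] at this
    simp at this
  rw [hSi i hi, hSi j hj]
  simp only [Same, if_true]
  exact ⟨hp, hsh⟩

/-- **regular case**: the form `F` is continuous -/
theorem continuousAt_FR (X : Ext) {S : L → Bool} (hS : H732.FarOk R S) {p0 : Co R m}
    (hd : emb R m p0 ∈ R.dom S) : ContinuousAt (FR R m X S) p0 := by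
  refine continuousAt_alt fun w => ?_
  have h1 : ContinuousAt (X.H R S) (emb R m p0) :=
    ((X.hreg R S hS).1.continuousOn).continuousAt ((H375.isOpen_dom R S).mem_nhds hd)
  have h2 : ContinuousAt (fun p => X.H R S (emb R m p)) p0 :=
    ContinuousAt.comp (f := emb R m) (g := X.H R S) h1
      (H578.contDiff_emb R m).continuous.continuousAt
  have h3 : ContinuousAt (fun p : Co R m => fun i => (H732.scl R) ((W R m).dpsi p (w i))) p0 := by
    refine continuousAt_pi.2 fun i => (H732.scl R).continuous.continuousAt.comp ?_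
    have h4 : Continuous fun p : Co R m => (W R m).dpsi p (w i) := by
      have ht : ∀ g, Continuous fun p : Co R m => (W R m).tau p g := fun g =>
        (continuous_apply g).comp (continuous_fst.comp (W R m).continuous_psi)
      simp only [Reg.dpsi_apply]
      refine Continuous.prodMk (continuous_pi fun g => (ht g).mul continuous_const)
        continuous_const
    exact h4.continuousAt
  change Tendsto (fun p => (X.H R S (emb R m p))
    (fun i => (H732.scl R) ((W R m).dpsi p (w i)))) (𝓝 p0) (𝓝 _)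
  exact Reg.tendsto_eval h2 h3

/-- **the integrand is continuous at every point of the closed region** -/
theorem continuousAt_OmR (X : Ext) (Θ : Gauge) {T : MT} (hT : SymT T) {S : L → Bool}
    (hS : H732.FarOk R S) {p0 : Co R m} (hD : emb R m p0 ∈ H375.D1 R S)
    (hX : (posE R m p0).1 ∈ XX) : ContinuousAt (OmR R m X Θ T S) p0 := by
  have hz : (∀ᶠ p in 𝓝 p0, OmR R m X Θ T S p = 0) → ContinuousAt (OmR R m X Θ T S) p0 := by
    intro h
    have h1 : ContinuousAt (fun _ : Co R m => (0 : Alt (16 + 14) (Co R m))) p0 :=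
      continuousAt_const
    refine h1.congr ?_
    filter_upwards [h] with p hp
    exact hp.symm
  by_cases hn : ∀ j, shE R m S p0 j ≠ 0
  · by_cases hs : H95.Sep S (posE R m p0).2 (shE R m S p0)
    · have hd : emb R m p0 ∈ R.dom S := by
        refine ⟨hD.1, hD.2.1, hD.2.2, fun i j hij ht _ => hs i j hij ht, ?_⟩
        intro i j k hi hj ht hr h
        have hij : i ≠ j := fun h => by rw [h] at hr; exact lt_irrefl _ hr
        exact hs i j hij ht (same_of_prod hS hi hj hr h)
      exact continuousAt_wedgeT T (continuousAt_FR X hS hd)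
        fun i => continuousAt_thR hS hD hX hn i
    · simp only [H95.Sep, not_forall, not_not] at hs
      obtain ⟨i, j, hij, h2, hsame⟩ := hs
      obtain ⟨a, rfl⟩ := H182.mrk_surj i
      obtain ⟨b, rfl⟩ := H182.mrk_surj j
      exact hz (ev_col hT hS hD hX hn hij h2 hsame)
  · simp only [not_forall, not_not] at hn
    obtain ⟨j, hj⟩ := hn
    obtain ⟨a, rfl⟩ := H182.mrk_surj j
    exact hz (ev_root hS hD hX hj)

theorem cat_comp {A B C : Type*} [TopologicalSpace A] [TopologicalSpace B] [TopologicalSpace C]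
    (f : A → B) (g : B → C) (a : A) (hg : ContinuousAt g (f a)) (hf : ContinuousAt f a) :
    ContinuousAt (fun x => g (f x)) a := ContinuousAt.comp hg hf

/-- **(M2)** -/
theorem contOm (X : Ext) (Θ : Gauge) : ContOm X Θ := by
  refine ⟨64, fun T hT R m far q hq => ?_⟩
  obtain ⟨hy, hα, hx⟩ := hq
  obtain ⟨hI, hz⟩ := H182.inr_mk R m hx hy
  have hD : emb R m (H573.mk R m q.1.1 q.1.2 q.2) ∈ H375.D1 R (Sx R far) :=
    H182.emb_mem_D1 hI hy hz
  have hX : (posE R m (H573.mk R m q.1.1 q.1.2 q.2)).1 ∈ XX :=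
    H182.rootsL_mem (fun k => (by norm_num : (0 : ℝ) ≤ 64).trans (hy k)) hα
  have h1 := continuousAt_OmR X Θ hT (H182.farOk_Sx R far) hD hX
  have h2 : Continuous fun q : BF R m => H573.mk R m q.1.1 q.1.2 q.2 := by
    unfold H573.mk
    exact ((continuous_fst.comp (continuous_fst.comp continuous_snd)).prodMk
      ((continuous_snd.comp (continuous_fst.comp continuous_snd)).prodMk
        ((continuous_fst.comp continuous_fst).prodMk
          ((continuous_snd.comp continuous_fst).prodMk (continuous_snd.comp continuous_snd)))))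
  exact (cat_comp (fun q : BF R m => H573.mk R m q.1.1 q.1.2 q.2) (OmR R m X Θ T (Sx R far)) q
    h1 h2.continuousAt).continuousWithinAt

end Vale.Agent.P273.H607
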