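import Vale.Agent.P273.H595.Nat

/-!
Row GP-HOL, second half: the derivative of the primitive, from its differentiability.
No differentiation under the integral sign: the shifted path is admissible from the later point.
-/

open Complex Set Filter Topology MeasureTheory
open scoped ContDiff

namespace Vale.Agent.P273.H607

open H857 H595

noncomputable section

/-- the path from a later point of the path -/
def shg (g : ℝ → ℝ) (u : ℝ) (t : ℝ) : ℝ := g (t + u) - g u

theorem gam_shg (x : ℂ) (g : ℝ → ℝ) (u t : ℝ) : gam (gam x g u) (shg g u) t = gam x g (t + u) := by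
  simp only [gam, shg]; push_cast; ring

theorem deriv_shg (g : ℝ → ℝ) (u t : ℝ) : deriv (shg g u) t = deriv g (t + u) := by
  unfold shg
  rw [deriv_sub_const]
  exact deriv_comp_add_const g u t

theorem isPath_shg {g : ℝ → ℝ} (hg : IsPath g) (u : ℝ) : IsPath (shg g u) := by
  obtain ⟨K, hK⟩ := hg.bdd
  refine ⟨?_, by simp [shg], K, fun t => ?_⟩
  · unfold shg
    exact (hg.smooth.comp (contDiff_id.add contDiff_const)).sub contDiff_const
  · rw [deriv_shg]; exact hK _

/-- a shifted admissible path is admissible -/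
theorem adm_shg {B : Finset (Fin 6)} {b : C6} {x : ℂ} {g : ℝ → ℝ} (hg : Adm B b x g) {u : ℝ}
    (hu : 0 ≤ u) (hx : ∀ l, b l ≠ x) : Adm B b (gam x g u) (shg g u) := by
  refine ⟨isPath_shg hg.1 u, fun l _ hr => ?_⟩
  rw [sub_re, gam_re] at hr
  have h := hg.2 l (hx l) (by rw [sub_re]; linarith)
  have e : (b l - gam x g u).re + u = (b l - x).re := by
    rw [sub_re, sub_re, gam_re]; ring
  have e2 : (b l - gam x g u).im = (b l - x).im - g u := by
    rw [sub_im, sub_im, gam_im]; ring
  refine ⟨fun h1 => ?_, fun h1 => ?_⟩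
  · have := h.1 h1
    simp only [shg]
    rw [e, e2]; linarith
  · have := h.2 h1
    simp only [shg]
    rw [e, e2]; linarith

/-- the difference of the primitive at two points of a path -/
theorem P_sub_P (hI : StmINVn) {k : ℕ} {B : Finset (Fin 6)} {b : C6} {x : ℂ} {g : ℝ → ℝ}
    (hk : k ≤ 1) (hx : ∀ l, b l ≠ x) (hg : Adm B b x g) {u : ℝ}
    (hu : 0 ≤ u) : P k B b (gam x g u) = P k B b x + ∫ t in (0 : ℝ)..u, igd k B b x g t := by
  have h1 := P_eq hI hk (SR.of_ne hx) hg
  have hne : ∀ l, b l ≠ gam x g u := fun l h => by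
    have := Sb_ne_zero (hg.mem hu (Or.inl (hx l)))
    rw [h, sub_self] at this
    exact this rfl
  have h2 := P_eq hI hk (SR.of_ne hne) (adm_shg hg hu hx)
  have hint := (hI k B b x hk (SR.of_ne hx)).1 g hg
  have e1 : PG k B b (gam x g u) (shg g u) = -∫ t in Ioi u, igd k B b x g t := by
    unfold PG
    congr 1
    have : ∀ t, igd k B b (gam x g u) (shg g u) t = igd k B b x g (t + u) := by
      intro t
      unfold igd
      rw [gam_shg, deriv_shg]
    simp_rw [this]
    have h3 := (measurePreserving_add_right (volume : Measure ℝ) u).setIntegral_preimage_emb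
      (measurableEmbedding_addRight u) (fun t => igd k B b x g t) (Ioi u)
    rw [← h3]
    congr 2
    ext t; simp
  rw [h1, h2, e1]
  unfold PG
  rw [intervalIntegral.integral_of_le hu]
  have h4 : ∫ t in Ioi (0 : ℝ), igd k B b x g t =
      (∫ t in Ioc 0 u, igd k B b x g t) + ∫ t in Ioi u, igd k B b x g t := by
    rw [← Ioc_union_Ioi_eq_Ioi hu]
    refine setIntegral_union (Ioc_disjoint_Ioi le_rfl) measurableSet_Ioi ?_ ?_
    · exact hint.mono_set (Ioc_subset_Ioi_self)
    · exact hint.mono_set (Ioi_subset_Ioi hu)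
  rw [h4]; ring

theorem continuousAt_igd {k : ℕ} {B : Finset (Fin 6)} {b : C6} {x : ℂ} {g : ℝ → ℝ}
    (hg : IsPath g) {t : ℝ} (hmem : gam x g t ∈ Dm B b) : ContinuousAt (igd k B b x g) t := by
  have hgs : Continuous g := hg.smooth.continuous
  have hgam : ContinuousAt (gam x g) t := by
    unfold gam; fun_prop
  have hdg : ContinuousAt (deriv g) t :=
    (hg.smooth.continuous_deriv (by simp)).continuousAt
  have hsq : ContinuousAt (sq B b) (gam x g t) := by
    have h1 : AnalyticAt ℂ (fun p : C6 × ℂ => sq B p.1 p.2) (b, gam x g t) := analyticAt_sq hmem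
    have h2 : ContinuousAt (fun z : ℂ => ((b, z) : C6 × ℂ)) (gam x g t) := by fun_prop
    exact ContinuousAt.comp (f := fun z : ℂ => ((b, z) : C6 × ℂ))
      (g := fun p : C6 × ℂ => sq B p.1 p.2) h1.continuousAt h2
  have hne : sq B b (gam x g t) ≠ 0 := by
    refine sq_ne_zero fun l hl => ?_
    have := Sb_ne_zero (hmem l)
    rw [hl, sub_self] at this
    exact this rfl
  have hsqg : ContinuousAt (fun t => sq B b (gam x g t)) t :=
    ContinuousAt.comp (g := sq B b) (f := gam x g) hsq hgam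
  unfold igd
  refine ContinuousAt.mul (ContinuousAt.div (hgam.pow k) hsqg hne) ?_
  exact continuousAt_const.add ((Complex.continuous_ofReal.continuousAt.comp hdg).mul
    continuousAt_const)

/-- **the derivative of the primitive, from its differentiability** -/
theorem hasDerivAt_of_differentiableAt (hE : StmEX) (hI : StmINVn) {k : ℕ} {B : Finset (Fin 6)}
    {b₀ : C6} {x₀ : ℂ} (hk : k ≤ 1) (hx : ∀ l, b₀ l ≠ x₀)
    (ho : OK B b₀ x₀) (hd : DifferentiableAt ℂ (P k B b₀) x₀) :
    HasDerivAt (P k B b₀) (x₀ ^ k / sq B b₀ x₀) x₀ := by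
  obtain ⟨g, hg⟩ := hE B b₀ x₀ ho
  have hg0 : gam x₀ g 0 = x₀ := gam_zero hg.1.zero
  -- the path has a derivative at `0`
  have hgd : HasDerivAt g (deriv g 0) 0 :=
    (hg.1.smooth.differentiable (by simp) 0).hasDerivAt
  have hgam : HasDerivAt (fun t : ℝ => gam x₀ g t) (1 + (deriv g 0 : ℝ) * I) 0 := by
    unfold gam
    have h1 : HasDerivAt (fun t : ℝ => (t : ℂ)) 1 0 := Complex.ofRealCLM.hasDerivAt
    have h2 : HasDerivAt (fun t : ℝ => (g t : ℂ)) ((deriv g 0 : ℝ) : ℂ) 0 := hgd.ofReal_comp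
    exact (h1.add (h2.mul_const I)).const_add x₀
  -- first: chain rule
  have hc : HasDerivWithinAt (fun t : ℝ => P k B b₀ (gam x₀ g t))
      ((1 + (deriv g 0 : ℝ) * I) * deriv (P k B b₀) x₀) (Ici 0) 0 := by
    have h3 : HasDerivAt (P k B b₀) (deriv (P k B b₀) x₀) (gam x₀ g 0) := by
      rw [hg0]; exact hd.hasDerivAt
    have h4 := HasDerivAt.scomp (0 : ℝ) h3 hgam
    rw [smul_eq_mul] at h4
    exact h4.hasDerivWithinAt
  -- second: fundamental theorem
  have hf : HasDerivWithinAt (fun t : ℝ => P k B b₀ (gam x₀ g t)) (igd k B b₀ x₀ g 0)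
      (Ici 0) 0 := by
    have hint : IntervalIntegrable (igd k B b₀ x₀ g) volume 0 0 := by simp
    have hop : IsOpen {t : ℝ | gam x₀ g t ∈ Dm B b₀} := by
      have hgs : Continuous g := hg.1.smooth.continuous
      refine (isOpen_Dm B b₀).preimage ?_
      unfold gam; fun_prop
    have h0 : (0 : ℝ) ∈ {t : ℝ | gam x₀ g t ∈ Dm B b₀} :=
      fun l => hg.mem le_rfl (Or.inl (hx l))
    have h5 : HasDerivAt (fun u => ∫ t in (0 : ℝ)..u, igd k B b₀ x₀ g t) (igd k B b₀ x₀ g 0) 0 := by
      refine intervalIntegral.integral_hasDerivAt_right hint ?_ (continuousAt_igd hg.1 h0)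
      exact ContinuousOn.stronglyMeasurableAtFilter (μ := volume) hop
        (fun t ht => (continuousAt_igd hg.1 ht).continuousWithinAt) 0 h0
    have h6 : HasDerivWithinAt (fun u => P k B b₀ x₀ + ∫ t in (0 : ℝ)..u, igd k B b₀ x₀ g t)
        (igd k B b₀ x₀ g 0) (Ici 0) 0 := (h5.const_add _).hasDerivWithinAt
    refine h6.congr (fun u hu => ?_) ?_
    · exact P_sub_P hI hk hx hg hu
    · exact P_sub_P hI hk hx hg le_rfl
  have hu := (uniqueDiffWithinAt_Ici (0 : ℝ)).eq_deriv _ hc hf
  have hne : (1 + deriv g 0 * I : ℂ) ≠ 0 := by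
    intro h
    have := congrArg Complex.re h
    simp at this
  have he : igd k B b₀ x₀ g 0 = x₀ ^ k / sq B b₀ x₀ * (1 + deriv g 0 * I) := by
    unfold igd; rw [hg0]
  rw [he] at hu
  have hfin : deriv (P k B b₀) x₀ = x₀ ^ k / sq B b₀ x₀ := by
    have : (1 + deriv g 0 * I : ℂ) * deriv (P k B b₀) x₀ =
        (1 + deriv g 0 * I) * (x₀ ^ k / sq B b₀ x₀) := by rw [hu]; ring
    exact mul_left_cancel₀ hne this
  rw [← hfin]
  exact hd.hasDerivAt

end

end Vale.Agent.P273.H607
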